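import Vale.Agent.P183.Main
import Vale.Agent.P183.Dual

/-!
P183: a finite lattice that maps onto a representable lattice with lower bounded kernel is representable.
-/

universe u

namespace Vale.Agent.Results.P183.BoundedExtension

open Vale.Agent.P183

variable {L M : Type u} [Lattice L] [OrderBot L] [Fintype L] [Lattice M]

omit [OrderBot L] in
theorem exists_least (π : LatticeHom L M) (hπ : Function.Surjective π) (m : M) :
    ∃ b, π b = m ∧ ∀ z, m ≤ π z → b ≤ z := by
  classical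
  have hne : (Finset.univ.filter fun z => m ≤ π z).Nonempty :=
    (hπ m).imp fun z hz => Finset.mem_filter.2 ⟨Finset.mem_univ _, hz.ge⟩
  refine ⟨(Finset.univ.filter fun z => m ≤ π z).inf' hne id, le_antisymm ?_ ?_, fun z hz =>
    Finset.inf'_le id (b := z) (Finset.mem_filter.2 ⟨Finset.mem_univ _, hz⟩)⟩
  · obtain ⟨z, hz⟩ := hπ m
    exact le_of_le_of_eq (OrderHomClass.mono π
      (Finset.inf'_le id (b := z) (Finset.mem_filter.2 ⟨Finset.mem_univ _, hz.ge⟩))) hz
  · rw [map_finset_inf']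
    exact Finset.le_inf' _ _ fun z hz => (Finset.mem_filter.1 hz).2

theorem representable (π : LatticeHom L M) (hπ : Function.Surjective π)
    (hrep : ∃ (n : ℕ) (F : Set (Fin n → Fin n)), 0 < n ∧
      Nonempty (M ≃o {s : Setoid (Fin n) // ∀ f ∈ F, ∀ x y, s x y → s (f x) (f y)}))
    (r : L → ℕ)
    (hr : ∀ j : L, SupIrred j → ¬ (∀ z, π z = π j → j ≤ z) → ∀ C : Finset L, j ≤ C.sup id →
      (∀ c ∈ C, ¬ j ≤ c) → ∃ C' : Finset L, (∀ e ∈ C', SupIrred e ∧ (∃ c ∈ C, e ≤ c) ∧
        ((∀ z, π z = π e → e ≤ z) ∨ r e < r j)) ∧ j ≤ C'.sup id) :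
    ∃ (n : ℕ) (F : Set (Fin n → Fin n)), 0 < n ∧
      Nonempty (L ≃o {s : Setoid (Fin n) // ∀ f ∈ F, ∀ x y, s x y → s (f x) (f y)}) := by
  classical
  obtain ⟨n, F, hn, ⟨ι⟩⟩ := hrep
  let instM : OrderBot M :=
    { bot := π ⊥, bot_le := fun m => by
        obtain ⟨z, rfl⟩ := hπ m
        exact OrderHomClass.mono π bot_le }
  let finM : Fintype M := Fintype.ofSurjective π hπ
  have hbot : π ⊥ = (⊥ : M) := rfl
  choose β hβ hβle using exists_least π hπ
  have hleast : ∀ (j : L) (y : L), (∀ z, π z = π j → j ≤ z) → π j ≤ π y → j ≤ y := fun j y hj h =>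
    (hj (j ⊓ y) (by rw [map_inf, inf_eq_left.2 h])).trans inf_le_right
  have hcoreβ : ∀ m, ∀ z, π z = π (β m) → β m ≤ z := fun m z h =>
    hβle m z (by rw [h, hβ])
  have hirrβ : ∀ m, SupIrred m → SupIrred (β m) := fun m hm => by
    refine ⟨fun hmin => hm.ne_bot ?_, fun u v huv => ?_⟩
    · rw [← hβ m, isMin_iff_eq_bot.1 hmin, hbot]
    · have h := congrArg π huv
      rw [map_sup, hβ] at h
      rcases hm.2 h with h' | h'
      · exact Or.inl (le_antisymm (huv ▸ le_sup_left) (hβle m u h'.ge))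
      · exact Or.inr (le_antisymm (huv ▸ le_sup_right) (hβle m v h'.ge))
  have hsupp : ∀ m, ∃ x, (∃ s : Finset L, s.sup id = x ∧
      ∀ i ∈ s, SupIrred i ∧ ∀ z, π z = π i → i ≤ z) ∧ π x = m := fun m => by
    obtain ⟨s, hs, hsirr⟩ := exists_supIrred_decomposition m
    refine ⟨(s.image β).sup id, ⟨s.image β, rfl, fun i hi => ?_⟩, ?_⟩
    · obtain ⟨k, hk, rfl⟩ := Finset.mem_image.1 hi
      exact ⟨hirrβ k (hsirr hk), hcoreβ k⟩
    · have : ∀ t : Finset M, π ((t.image β).sup id) = t.sup id := fun t => by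
        induction t using Finset.induction_on with
        | empty => simpa using hbot
        | insert k t _ ih => rw [Finset.image_insert, Finset.sup_insert, Finset.sup_insert, id, map_sup, hβ, ih]; rfl
      rw [this, hs]
  let Φ : L → Setoid (Fin n) := fun x => (ι (π x)).1
  let B : Base L :=
    { Core := fun j => ∀ z, π z = π j → j ≤ z
      n := n
      Φ := Φ
      mono := fun x y h => ι.monotone (OrderHomClass.mono π h)
      refl_le := fun x y hx h => by
        obtain ⟨s, rfl, hs⟩ := hx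
        refine Finset.sup_le fun i hi => hleast i y (hs i hi).2 ?_
        exact (OrderHomClass.mono π (Finset.le_sup (f := id) hi)).trans (ι.le_iff_le.1 h)
      closed := fun θ hθ => by
        have hmem : ∀ f ∈ F, ∀ x y, θ x y → θ (f x) (f y) := fun f hf =>
          hθ f fun z x y h => (ι (π z)).2 f hf x y h
        obtain ⟨x, hx, hπx⟩ := hsupp (ι.symm ⟨θ, hmem⟩)
        exact ⟨x, hx, by simp only [Φ, hπx, OrderIso.apply_symm_apply]⟩
      refineCore := fun e _ he C hC => by
        refine ⟨(Finset.univ.filter fun m : M => SupIrred m ∧ ∃ c ∈ C, m ≤ π c).image β,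
          fun i hi => ?_, ?_⟩
        · obtain ⟨m, hm, rfl⟩ := Finset.mem_image.1 hi
          obtain ⟨hmirr, c, hc, hmc⟩ := (Finset.mem_filter.1 hm).2
          exact ⟨hirrβ m hmirr, hcoreβ m, c, hc, hβle m c hmc⟩
        · refine hleast e _ he ((OrderHomClass.mono π hC).trans ?_)
          have hsup : ∀ t : Finset L, π (t.sup id) = t.sup fun c => π c := fun t => by
            induction t using Finset.induction_on with
            | empty => simpa using hbot
            | insert k t _ ih => simp [map_sup, ih]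
          rw [hsup]
          refine Finset.sup_le fun c hc => ?_
          obtain ⟨s, hs, hsirr⟩ := exists_supIrred_decomposition (π c)
          rw [← hs]
          refine Finset.sup_le fun m hm => ?_
          refine (hβ m).ge.trans (OrderHomClass.mono π
            (Finset.le_sup (f := id) (Finset.mem_image_of_mem β (Finset.mem_filter.2 ?_))))
          exact ⟨Finset.mem_univ _, hsirr hm, c, hc, hs ▸ Finset.le_sup (f := id) hm⟩ }
  have hpq : ∀ j : Irr L, ∃ pq : Fin n × Fin n, B.Core (j : L) →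
      ∀ x, Φ x pq.1 pq.2 ↔ (j : L) ≤ x := fun j => by
    by_cases hj : B.Core (j : L)
    · obtain ⟨p, q, h⟩ := B.exists_pair j.2 hj
      exact ⟨(p, q), fun _ => h⟩
    · exact ⟨(⟨0, hn⟩, ⟨0, hn⟩), fun h => absurd h hj⟩
  choose pq hpq using hpq
  let S : Frame L :=
    { B with
      r := fun j => r j
      p := fun j => (pq j).1
      q := fun j => (pq j).2
      pair := hpq
      refine' := fun j hj C hC hc => by
        obtain ⟨C', hC', hsup⟩ := hr j j.2 hj C hC hc
        refine ⟨C'.subtype SupIrred, fun e he => ?_, hsup.trans (Finset.sup_le fun e he => ?_)⟩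
        · exact ⟨(hC' e (Finset.mem_subtype.1 he)).2.1, (hC' e (Finset.mem_subtype.1 he)).2.2⟩
        · exact Finset.le_sup (f := Subtype.val) (b := (⟨e, (hC' e he).1⟩ : Irr L))
            (Finset.mem_subtype.2 he) }
  exact representable_of_frame S

theorem one_new (π : LatticeHom L M) (hπ : Function.Surjective π)
    (hrep : ∃ (n : ℕ) (F : Set (Fin n → Fin n)), 0 < n ∧
      Nonempty (M ≃o {s : Setoid (Fin n) // ∀ f ∈ F, ∀ x y, s x y → s (f x) (f y)}))
    (h : ∀ i j : L, SupIrred i → SupIrred j → ¬ (∀ z, π z = π i → i ≤ z) →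
      ¬ (∀ z, π z = π j → j ≤ z) → i = j) :
    ∃ (n : ℕ) (F : Set (Fin n → Fin n)), 0 < n ∧
      Nonempty (L ≃o {s : Setoid (Fin n) // ∀ f ∈ F, ∀ x y, s x y → s (f x) (f y)}) := by
  classical
  refine representable π hπ hrep (fun _ => 0) fun j hj hjn C hC hc => ?_
  refine ⟨Finset.univ.filter fun e => SupIrred e ∧ ∃ c ∈ C, e ≤ c, fun e he => ?_, hC.trans ?_⟩
  · obtain ⟨-, heirr, c, hc', hle⟩ := Finset.mem_filter.1 he
    refine ⟨heirr, ⟨c, hc', hle⟩, Or.inl ?_⟩
    by_contra hen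
    obtain rfl := h e j heirr hj hen hjn
    exact hc c hc' hle
  · refine Finset.sup_le fun c hc' => ?_
    obtain ⟨s, hs, hsirr⟩ := exists_supIrred_decomposition c
    change c ≤ _
    rw [← hs]
    refine Finset.sup_le fun i hi => ?_
    exact Finset.le_sup (f := id)
      (Finset.mem_filter.2 ⟨Finset.mem_univ _, hsirr hi, c, hc', hs ▸ Finset.le_sup (f := id) hi⟩)

theorem one_new_dual (π : LatticeHom L M) (hπ : Function.Surjective π)
    (hrep : ∃ (n : ℕ) (F : Set (Fin n → Fin n)), 0 < n ∧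
      Nonempty (M ≃o {s : Setoid (Fin n) // ∀ f ∈ F, ∀ x y, s x y → s (f x) (f y)}))
    (h : ∀ i j : L, InfIrred i → InfIrred j → ¬ (∀ z, π z = π i → z ≤ i) →
      ¬ (∀ z, π z = π j → z ≤ j) → i = j) :
    ∃ (n : ℕ) (F : Set (Fin n → Fin n)), 0 < n ∧
      Nonempty (L ≃o {s : Setoid (Fin n) // ∀ f ∈ F, ∀ x y, s x y → s (f x) (f y)}) := by
  classical
  let topL : OrderTop L :=
    { top := Finset.univ.sup id, le_top := fun x => Finset.le_sup (f := id) (Finset.mem_univ x) }
  let bL : BoundedOrder L := BoundedOrder.mk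
  let bM : BoundedOrder M :=
    { top := π ⊤
      le_top := fun m => by
        obtain ⟨z, rfl⟩ := hπ m
        exact OrderHomClass.mono π le_top
      bot := π ⊥
      bot_le := fun m => by
        obtain ⟨z, rfl⟩ := hπ m
        exact OrderHomClass.mono π bot_le }
  let ρ : LatticeHom Lᵒᵈ Mᵒᵈ :=
    { toFun := fun x => OrderDual.toDual (π (OrderDual.ofDual x))
      map_sup' := fun x y => congrArg OrderDual.toDual (map_inf π _ _)
      map_inf' := fun x y => congrArg OrderDual.toDual (map_sup π _ _) }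
  obtain ⟨n, F, hn, ⟨e⟩⟩ := representable_dual (one_new ρ hπ (representable_dual hrep)
    fun i j hi hj hni hnj => h i j hi hj hni hnj)
  exact ⟨n, F, hn, ⟨(OrderIso.dualDual L).trans e⟩⟩

theorem result :
    (∀ (L M : Type u) [Lattice L] [OrderBot L] [Fintype L] [Lattice M] (π : LatticeHom L M),
      Function.Surjective π →
      (∃ (n : ℕ) (F : Set (Fin n → Fin n)), 0 < n ∧
        Nonempty (M ≃o {s : Setoid (Fin n) // ∀ f ∈ F, ∀ x y, s x y → s (f x) (f y)})) →
      (∃ r : L → ℕ, ∀ j : L, SupIrred j → ¬ (∀ z, π z = π j → j ≤ z) → ∀ C : Finset L,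
        j ≤ C.sup id → (∀ c ∈ C, ¬ j ≤ c) → ∃ C' : Finset L, (∀ e ∈ C', SupIrred e ∧
          (∃ c ∈ C, e ≤ c) ∧ ((∀ z, π z = π e → e ≤ z) ∨ r e < r j)) ∧ j ≤ C'.sup id) →
      ∃ (n : ℕ) (F : Set (Fin n → Fin n)), 0 < n ∧
        Nonempty (L ≃o {s : Setoid (Fin n) // ∀ f ∈ F, ∀ x y, s x y → s (f x) (f y)})) ∧
    (∀ (L M : Type u) [Lattice L] [OrderBot L] [Fintype L] [Lattice M] (π : LatticeHom L M),
      Function.Surjective π →
      (∃ (n : ℕ) (F : Set (Fin n → Fin n)), 0 < n ∧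
        Nonempty (M ≃o {s : Setoid (Fin n) // ∀ f ∈ F, ∀ x y, s x y → s (f x) (f y)})) →
      (∀ i j : L, SupIrred i → SupIrred j → ¬ (∀ z, π z = π i → i ≤ z) →
        ¬ (∀ z, π z = π j → j ≤ z) → i = j) →
      ∃ (n : ℕ) (F : Set (Fin n → Fin n)), 0 < n ∧
        Nonempty (L ≃o {s : Setoid (Fin n) // ∀ f ∈ F, ∀ x y, s x y → s (f x) (f y)})) ∧
    (∀ (L M : Type u) [Lattice L] [OrderBot L] [Fintype L] [Lattice M] (π : LatticeHom L M),
      Function.Surjective π →
      (∃ (n : ℕ) (F : Set (Fin n → Fin n)), 0 < n ∧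
        Nonempty (M ≃o {s : Setoid (Fin n) // ∀ f ∈ F, ∀ x y, s x y → s (f x) (f y)})) →
      (∀ i j : L, InfIrred i → InfIrred j → ¬ (∀ z, π z = π i → z ≤ i) →
        ¬ (∀ z, π z = π j → z ≤ j) → i = j) →
      ∃ (n : ℕ) (F : Set (Fin n → Fin n)), 0 < n ∧
        Nonempty (L ≃o {s : Setoid (Fin n) // ∀ f ∈ F, ∀ x y, s x y → s (f x) (f y)})) :=
  ⟨fun _ _ _ _ _ _ π hπ hrep ⟨r, hr⟩ => representable π hπ hrep r hr,
    fun _ _ _ _ _ _ π hπ hrep h => one_new π hπ hrep h,
    fun _ _ _ _ _ _ π hπ hrep h => one_new_dual π hπ hrep h⟩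

end Vale.Agent.Results.P183.BoundedExtension
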